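import Vale.Agent.P254.Kite

/-!
The strong isotropic constant conjecture for polytopes with at most `n + 2` vertices.
-/

namespace Vale.Agent.Results.P254.FewVertices

open Vale.Agent.P254 MeasureTheory

variable {n : ℕ}

lemma exists_normal_form (w : Fin (n + 2) → (Fin n → ℝ))
    (hw : (interior (convexHull ℝ (Set.range w))).Nonempty) :
    ∃ (u : Fin (n + 1) → (Fin n → ℝ)) (q : Fin n → ℝ), LinearMap.det (lin u) ≠ 0 ∧
      convexHull ℝ (Set.range w) = aff u '' kite q := by
  classical
  rw [interior_convexHull_nonempty_iff_affineSpan_eq_top] at hw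
  obtain ⟨t, htw, hspan, hind⟩ := exists_affineIndependent ℝ (Fin n → ℝ) (Set.range w)
  rw [hw] at hspan
  have : Fintype t := ((Set.finite_range w).subset htw).fintype
  have hcard : Fintype.card t = n + 1 := by
    have := hind.affineSpan_eq_top_iff_card_eq_finrank_add_one.mp (by simpa using hspan)
    simpa using this
  let ε : Fin (n + 1) ≃ t := (Fintype.equivFinOfCardEq hcard).symm
  set u : Fin (n + 1) → (Fin n → ℝ) := fun i => (ε i).1
  have hu : LinearMap.det (lin u) ≠ 0 :=
    det_lin_of_affineIndependent (hind.comp_embedding ε.toEmbedding)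
  choose π hπ using fun i => htw (ε i).2
  have hπinj : Function.Injective π := fun i j h => ε.injective (Subtype.ext (by
    rw [← hπ i, ← hπ j, h]))
  obtain ⟨l, hl⟩ : ∃ l, l ∉ Finset.univ.image π := by
    by_contra h
    push Not at h
    have h1 : Finset.univ ⊆ Finset.univ.image π := fun x _ => h x
    have := Finset.card_le_card h1
    rw [Finset.card_image_of_injective _ hπinj] at this
    simp at this
  have hcov : ∀ i, i = l ∨ ∃ k, π k = i := fun i => by
    by_contra h
    push Not at h
    have h1 : insert i (insert l (Finset.univ.image π)) ⊆ (Finset.univ : Finset (Fin (n + 2))) :=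
      Finset.subset_univ _
    have := Finset.card_le_card h1
    rw [Finset.card_insert_of_notMem (by simp [h.1, h.2]), Finset.card_insert_of_notMem hl,
      Finset.card_image_of_injective _ hπinj] at this
    simp at this
  obtain ⟨q, hq⟩ : ∃ q, aff u q = w l := by
    obtain ⟨q, hq⟩ := (LinearMap.equivOfDetNeZero (lin u) hu).surjective (w l - u 0)
    exact ⟨q, by rw [aff_eq]; exact eq_sub_iff_add_eq.mp hq⟩
  refine ⟨u, q, hu, ?_⟩
  rw [kite, image_aff_hull]
  congr 1
  ext x
  constructor
  · rintro ⟨i, rfl⟩
    rcases hcov i with rfl | ⟨k, rfl⟩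
    · exact ⟨Fin.last (n + 1), by simp [hq]⟩
    · exact ⟨k.castSucc, by simp [aff_at_corner, hπ, u]⟩
  · rintro ⟨i, rfl⟩
    induction i using Fin.lastCases with
    | last => exact ⟨l, by simp [hq]⟩
    | cast k => exact ⟨π k, by simp [aff_at_corner, hπ, u]⟩

/-- For every `n ≥ 1`, a full-dimensional polytope with at most `n + 2` vertices has isotropic
constant at most that of a simplex, with equality exactly for simplices. -/
theorem result : ∀ (n : ℕ), 1 ≤ n → ∀ (w : Fin (n + 2) → (Fin n → ℝ)),
    (interior (convexHull ℝ (Set.range w))).Nonempty →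
    ∀ (v : Fin (n + 1) → (Fin n → ℝ)), AffineIndependent ℝ v →
      isoConst (convexHull ℝ (Set.range w)) ≤ isoConst (convexHull ℝ (Set.range v)) ∧
      (isoConst (convexHull ℝ (Set.range w)) = isoConst (convexHull ℝ (Set.range v)) ↔
        ∃ z : Fin (n + 1) → (Fin n → ℝ), AffineIndependent ℝ z ∧
          convexHull ℝ (Set.range w) = convexHull ℝ (Set.range z)) := by
  intro n hn w hw v hv
  obtain ⟨u, q, hu, hK⟩ := exists_normal_form w hw
  have hL : ∀ K : Set (Fin n → ℝ), isoConst K = isoPow K ^ (1 / (2 * (n : ℝ))) := fun K => rfl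
  have hs : ∀ z : Fin (n + 1) → (Fin n → ℝ), AffineIndependent ℝ z →
      isoPow (convexHull ℝ (Set.range z)) = simplexValue n := fun z hz => by
    rw [← aff_image_corner]; exact isoPow_simplex hn (det_lin_of_affineIndependent hz)
  have hκ := kappa_pos n
  have hpos : 0 < simplexValue n := by unfold simplexValue; unfold kappa at *; positivity
  have hvol : (volume (kite q)).toReal ≠ 0 := by
    rw [volume_toReal, (kite_moments hn q 0 0).1]
    exact (mul_pos hκ (lt_of_lt_of_le one_pos (one_le_posTotal q))).ne'
  set a := posEnergy q with ha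
  set b := negEnergy q with hb
  have hval : isoPow (convexHull ℝ (Set.range w)) = simplexValue n * (a + b - a * b) := by
    rw [hK, isoPow_aff_image hu (isCompact_kite q) hvol, isoPow_kite hn]
  have ha0 : 0 ≤ a := by rw [ha, posEnergy]; positivity
  have hb0 : 0 ≤ b := by
    rw [hb, negEnergy]
    refine div_nonneg (add_nonneg (Finset.sum_nonneg fun j _ => ?_) zero_le_one) (sq_nonneg _)
    split_ifs <;> positivity
  have ha1 : a ≤ 1 := posEnergy_le q
  have hb1 : b ≤ 1 := (negEnergy_le q).1
  have hle : simplexValue n * (a + b - a * b) ≤ simplexValue n := by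
    nlinarith [mul_nonneg (mul_nonneg (sub_nonneg.mpr ha1) (sub_nonneg.mpr hb1)) hpos.le]
  have hnn : 0 ≤ simplexValue n * (a + b - a * b) :=
    mul_nonneg hpos.le (by nlinarith [mul_le_mul_of_nonneg_left hb1 ha0])
  have hexp : 0 < 1 / (2 * (n : ℝ)) := by
    have : (0 : ℝ) < n := by exact_mod_cast hn
    positivity
  rw [hL, hL, hval, hs v hv]
  refine ⟨Real.rpow_le_rpow hnn hle hexp.le, fun heq => ?_, ?_⟩
  · have h1 := (Real.rpow_left_inj hnn hpos.le hexp.ne').mp heq
    have h2 : (1 - a) * (1 - b) = 0 := by
      have : a + b - a * b = 1 := by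
        have := mul_left_cancel₀ hpos.ne' (h1.trans (mul_one _).symm)
        exact this
      linarith
    have himg : ∀ z : Fin (n + 1) → (Fin n → ℝ), LinearMap.det (lin z) ≠ 0 →
        kite q = aff z '' corner n →
        ∃ z : Fin (n + 1) → (Fin n → ℝ), AffineIndependent ℝ z ∧
          convexHull ℝ (Set.range w) = convexHull ℝ (Set.range z) := fun z hz he => by
      refine ⟨fun i => aff u (z i), ?_, ?_⟩
      · let f : (Fin n → ℝ) →ᵃ[ℝ] (Fin n → ℝ) :=
          (lin u).toAffineMap + AffineMap.const ℝ (Fin n → ℝ) (u 0)
        have hf : aff u = f := funext fun x => by simp [f, aff_eq]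
        rw [hf]
        exact (affineIndependent_of_det_lin hz).map' f (hf ▸ aff_injective hu)
      · rw [hK, he, aff_image_corner, image_aff_hull]
    rcases mul_eq_zero.mp h2 with h | h
    · obtain ⟨z, hz, he⟩ := isSimplex_of_posEnergy (show posEnergy q = 1 by linarith)
      exact himg z hz he
    · have hc : corner n = aff (corners n) '' corner n := by simp [aff_corners]
      refine himg (corners n) ?_ ?_
      · have : lin (corners n) = LinearMap.id := LinearMap.ext fun x => by
          have := aff_eq (corners n) x
          rw [aff_corners] at this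
          simpa [corners] using this.symm
        rw [this, LinearMap.det_id]; exact one_ne_zero
      · rw [← hc]
        exact kite_eq_corner ((negEnergy_le q).2 (by linarith))
  · rintro ⟨z, hz, he⟩
    rw [← hval, he, hs z hz]

end Vale.Agent.Results.P254.FewVertices
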